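import Vale.Agent.P317.Boch
import Vale.Agent.P317.Cap
import Vale.Agent.P317.Mix
import Vale.Agent.P317.Samp
import Vale.Agent.P317.Law
import Vale.Agent.P317.Machine

/-!
An FPRAS for the number of common bases of two matroids given by independence oracles.
-/

namespace Vale.Agent.Results.P317.Fpras

open Vale.Agent.P317

theorem result :
    ∃ (f : List ℕ × List Bool × List Bool → (Bool × List Bool) × ℕ × ℕ) (P : Polynomial ℕ),
    (∃ M : Turing.TM2ComputableInPolyTime codeIn codeOut f, ∀ k, Finite (M.tm.Γ k)) ∧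
    ∀ (n : ℕ) (M₁ M₂ : Matroid (Fin n)), M₁.E = Set.univ → M₂.E = Set.univ →
      M₁.eRank = M₂.eRank → ∀ ε δ : ℚ, 0 < ε → ε < 1 → 0 < δ → δ < 1 →
      ∀ T : ℕ, T = P.eval (n + ⌈ε⁻¹⌉₊ + Nat.size ⌈δ⁻¹⌉₊) →
      ∀ N : ℕ, N = {X | M₁.IsBase X ∧ M₂.IsBase X}.ncard →
      1 - δ ≤ ((Finset.univ.filter fun ρ : Fin T → Bool =>
        (1 - ε) * N ≤ estimate f (oracle M₁ M₂) [n, ε.num.toNat, ε.den, δ.num.toNat, δ.den]
          (List.ofFn ρ) T ∧
        estimate f (oracle M₁ M₂) [n, ε.num.toNat, ε.den, δ.num.toNat, δ.den]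
          (List.ofFn ρ) T ≤ (1 + ε) * N).card : ℚ) / 2 ^ T :=
  final fun n b B hB hq => law b B hB hq
    (samp b B hB hq (step b B hB hq (mix _ (poin _))) (cap _ (tri _)))

end Vale.Agent.Results.P317.Fpras
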